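import Vale.Agent.P141.H609.Z3
import Vale.Agent.P141.H338.Lab4
import Vale.Agent.P141.H103.PotW
import Vale.Agent.P141.H999.LightM
import Vale.Agent.P141.H609.Reg1

/-!
# P141, line (A): the pair sum `LP` with labels as the finest digits

`dp`, `dl` : position and label of an index of the fine grid; `TE` : the embedding of
`Ix k × κ` (labels `κ` put into `lbs L` by `e`) into the indices of the fine grid; `DE` : the
embedding of the positions.

* `bl_enc` : the block of a labelled function is `√(2 ^ L) DE * mx * TEᵀ`;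
* `phi_TE` : the saturated Gram matrix of the fine grid is `TE * phi * TEᵀ`;
* `LP_node`, `LP_lab` : `H609.LP` of the fine grid by the coarse pair functional
  `tr (Q h P h)`, `P = S X_B Sᵀ`, `Q = s² phi (s⁻² X_C)`.
-/

namespace Vale.Agent.P141.H536

open Finset Matrix Vale.Agent.P075 Vale.Agent.P141.PL Vale.Agent.P141.PL.H588
open Vale.Agent.P141.PL.H804 Vale.Agent.P141.H958 Vale.Agent.P141.H609
open Vale.Agent.P141.H338 (cu lf)
open Vale.Agent.P141.H103 (GW)

noncomputable section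

/-! ### positions and labels -/

theorem val_surj (k : ℕ) {v : ℕ} (h : v < 2 ^ k) : ∃ i : Ix k, val k i = v := by
  induction k generalizing v with
  | zero =>
    refine ⟨(), ?_⟩
    simp only [pow_zero, Nat.lt_one_iff] at h
    rw [h]
    rfl
  | succ k ih =>
    by_cases hv : v < 2 ^ k
    · obtain ⟨i, hi⟩ := ih hv
      exact ⟨Sum.inl i, hi⟩
    · obtain ⟨i, hi⟩ := ih (v := v - 2 ^ k) (by rw [pow_succ] at h; omega)
      exact ⟨Sum.inr i, by change 2 ^ k + val k i = v; omega⟩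

theorem dp_ex (k L : ℕ) (i : Ix (k + L)) : ∃ j : Ix k, val k j = val (k + L) i / 2 ^ L := by
  refine val_surj k ?_
  have h := val_lt (k + L) i
  rw [Nat.div_lt_iff_lt_mul (by positivity), ← pow_add]
  exact h

/-- The position. -/
def dp (k L : ℕ) (i : Ix (k + L)) : Ix k := (dp_ex k L i).choose

theorem dp_val (k L : ℕ) (i : Ix (k + L)) : val k (dp k L i) = val (k + L) i / 2 ^ L :=
  (dp_ex k L i).choose_spec

/-- The label. -/
def dl (k L : ℕ) (i : Ix (k + L)) : ℤ := ((val (k + L) i % 2 ^ L : ℕ) : ℤ)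

theorem val_dec (k L : ℕ) (i : Ix (k + L)) :
    (val (k + L) i : ℤ) = 2 ^ L * (val k (dp k L i) : ℤ) + dl k L i := by
  unfold dl
  rw [dp_val]
  have h := Nat.div_add_mod (val (k + L) i) (2 ^ L)
  exact_mod_cast h.symm

theorem dl_mem (k L : ℕ) (i : Ix (k + L)) : dl k L i ∈ lbs L := by
  unfold dl lbs
  rw [mem_Ico]
  constructor
  · positivity
  · have := Nat.mod_lt (val (k + L) i) (show 0 < 2 ^ L by positivity)
    exact_mod_cast this

theorem pos_eq (k L : ℕ) (m : ℤ) (i : Ix (k + L)) :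
    2 ^ (k + L) * m + (val (k + L) i : ℤ) = 2 ^ L * (2 ^ k * m + val k (dp k L i)) + dl k L i := by
  rw [val_dec, pow_add]
  ring

theorem ix_pos (k L : ℕ) (m : ℤ) (i : Ix (k + L)) :
    ix L (2 ^ (k + L) * m + (val (k + L) i : ℤ)) = 2 ^ k * m + val k (dp k L i) := by
  rw [pos_eq, ix_mk (dl_mem k L i)]

theorem lb_pos (k L : ℕ) (m : ℤ) (i : Ix (k + L)) :
    lb L (2 ^ (k + L) * m + (val (k + L) i : ℤ)) = dl k L i := by
  rw [pos_eq, lb_mk (dl_mem k L i)]

/-- Sums over the indices of the fine grid. -/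
theorem sum_dec (k L : ℕ) (f : Ix k → ℤ → ℝ) :
    ∑ i : Ix (k + L), f (dp k L i) (dl k L i) = ∑ j : Ix k, ∑ l ∈ lbs L, f j l := by
  set g : ℤ → ℤ → ℝ := fun l x => ∑ j : Ix k, if (val k j : ℤ) = x then f j l else 0 with hg
  have key : ∀ (j : Ix k) (l : ℤ), g l (val k j) = f j l := by
    intro j l
    rw [hg]
    simp only
    rw [Finset.sum_eq_single j]
    · rw [if_pos rfl]
    · intro j' _ hj
      rw [if_neg]
      intro h
      exact hj (val_inj k (by exact_mod_cast h))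
    · intro h
      exact absurd (mem_univ _) h
  have h1 := sum_iv_add L k 0 g
  rw [sum_iv, sum_iv] at h1
  simp only [mul_zero, zero_add] at h1
  have e1 : ∀ i : Ix (k + L), g (lb L (val (k + L) i : ℤ)) (ix L (val (k + L) i : ℤ)) =
      f (dp k L i) (dl k L i) := by
    intro i
    have a1 := ix_pos k L 0 i
    have a2 := lb_pos k L 0 i
    simp only [mul_zero, zero_add] at a1 a2
    rw [a1, a2, key]
  simp only [e1] at h1
  rw [h1]
  exact Finset.sum_congr rfl fun j _ => Finset.sum_congr rfl fun l _ => key j l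

set_option linter.unusedSectionVars false

section lab

variable {κ : Type*} [Fintype κ] [DecidableEq κ] {L : ℕ} {e : κ → ℤ}

/-- The embedding of the labelled positions. -/
def TE (L : ℕ) (e : κ → ℤ) (k : ℕ) : Matrix (Ix (k + L)) (Ix k × κ) ℝ :=
  of fun i p => if dp k L i = p.1 ∧ dl k L i = e p.2 then 1 else 0

/-- The embedding of the positions. -/
def DE (L k : ℕ) : Matrix (Ix (k + L)) (Ix k) ℝ :=
  of fun i j => if dp k L i = j then 1 else 0

theorem TE_apply (k : ℕ) (i : Ix (k + L)) (p : Ix k × κ) :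
    TE L e k i p = if dp k L i = p.1 ∧ dl k L i = e p.2 then 1 else 0 := rfl

theorem DE_apply (k : ℕ) (i : Ix (k + L)) (j : Ix k) :
    DE L k i j = if dp k L i = j then 1 else 0 := rfl

theorem TE_iso (he : Function.Injective e) (hm : ∀ i, e i ∈ lbs L) (k : ℕ) :
    (TE L e k)ᵀ * TE L e k = 1 := by
  ext p q
  rw [Matrix.mul_apply]
  simp only [Matrix.transpose_apply, TE_apply]
  rw [sum_dec k L fun j l => (if j = p.1 ∧ l = e p.2 then (1 : ℝ) else 0) *
    (if j = q.1 ∧ l = e q.2 then 1 else 0)]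
  rw [Finset.sum_eq_single p.1]
  · rw [Finset.sum_eq_single (e p.2)]
    · rw [Matrix.one_apply]
      by_cases hpq : p = q
      · subst hpq
        simp
      · rw [if_neg hpq]
        have : ¬ (p.1 = q.1 ∧ e p.2 = e q.2) := fun h => hpq (Prod.ext h.1 (he h.2))
        rw [if_neg this, mul_zero]
    · intro l _ hl
      rw [if_neg (fun h => hl h.2), zero_mul]
    · intro h
      exact absurd (hm p.2) h
  · intro j _ hj
    refine Finset.sum_eq_zero fun l _ => ?_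
    rw [if_neg (fun h => hj h.1), zero_mul]
  · intro h
    exact absurd (mem_univ _) h

theorem DE_iso (k : ℕ) : (DE L k)ᵀ * DE L k = (2 ^ L : ℝ) • (1 : Matrix (Ix k) (Ix k) ℝ) := by
  ext p q
  rw [Matrix.mul_apply]
  simp only [Matrix.transpose_apply, DE_apply]
  rw [sum_dec k L fun j _ => (if j = p then (1 : ℝ) else 0) * (if j = q then 1 else 0)]
  simp only [sum_lbs_const]
  rw [Finset.sum_eq_single p]
  · rw [Matrix.smul_apply, Matrix.one_apply, smul_eq_mul]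
    simp
  · intro j _ hj
    rw [if_neg hj, zero_mul, mul_zero]
  · intro h
    exact absurd (mem_univ _) h

/-- The coarse block of a labelled function (rows = first variable). -/
def mx (k : ℕ) (f : κ → ℤ → ℤ → ℝ) (n m : ℤ) : Matrix (Ix k) (Ix k × κ) ℝ :=
  of fun j p => f p.2 (2 ^ k * n + val k j) (2 ^ k * m + val k p.1)

theorem DE_mul (k : ℕ) {α : Type*} (M : Matrix (Ix k) α ℝ) (i : Ix (k + L)) (a : α) :
    (DE L k * M) i a = M (dp k L i) a := by
  rw [Matrix.mul_apply]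
  simp only [DE_apply, ite_mul, one_mul, zero_mul]
  rw [Finset.sum_ite_eq]
  simp

theorem mul_TEt (k : ℕ) {α : Type*} (M : Matrix α (Ix k × κ) ℝ) (a : α) (i : Ix (k + L)) :
    (M * (TE L e k)ᵀ) a i = cu e (fun q => M a (dp k L i, q)) (dl k L i) := by
  rw [Matrix.mul_apply, Fintype.sum_prod_type]
  simp only [Matrix.transpose_apply, TE_apply]
  rw [Finset.sum_eq_single (dp k L i)]
  · unfold cu
    refine Finset.sum_congr rfl fun q _ => ?_
    by_cases h : dl k L i = e q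
    · rw [if_pos ⟨rfl, h⟩, if_pos h.symm, mul_one]
    · rw [if_neg (fun h' => h h'.2), if_neg (fun h' => h h'.symm), mul_zero]
  · intro j _ hj
    refine Finset.sum_eq_zero fun q _ => ?_
    rw [if_neg (fun h => hj h.1.symm), mul_zero]
  · intro h
    exact absurd (mem_univ _) h

/-- **The block of a labelled function on the fine grid.** -/
theorem bl_enc (k : ℕ) (f : κ → ℤ → ℤ → ℝ) (n m : ℤ) :
    bl (k + L) (encR L (lf e f)) n m = √(2 ^ L) • (DE L k * mx k f n m * (TE L e k)ᵀ) := by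
  ext i i'
  rw [Matrix.smul_apply, mul_TEt, smul_eq_mul]
  simp only [DE_mul]
  change encR L (lf e f) (2 ^ (k + L) * n + val (k + L) i) (2 ^ (k + L) * m + val (k + L) i') = _
  rw [encR_apply, ix_pos, ix_pos, lb_pos]
  rfl

theorem two_pow_sqrt (L : ℕ) : √((2 : ℝ) ^ L) * √(2 ^ L) = 2 ^ L := sqrt_two_mul L

/-- Gram matrices on the second variable. -/
theorem gram_enc (k : ℕ) (f : κ → ℤ → ℤ → ℝ) (n m : ℤ) :
    (bl (k + L) (encR L (lf e f)) n m)ᵀ * bl (k + L) (encR L (lf e f)) n m =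
      (4 ^ L : ℝ) • (TE L e k * ((mx k f n m)ᵀ * mx k f n m) * (TE L e k)ᵀ) := by
  rw [bl_enc]
  have e4 : (4 : ℝ) ^ L = 2 ^ L * 2 ^ L := by rw [← mul_pow]; norm_num
  rw [transpose_smul, transpose_mul, transpose_mul, transpose_transpose, Matrix.smul_mul,
    Matrix.mul_smul, smul_smul, two_pow_sqrt]
  rw [show TE L e k * ((mx k f n m)ᵀ * (DE L k)ᵀ) * (DE L k * mx k f n m * (TE L e k)ᵀ) =
    TE L e k * ((mx k f n m)ᵀ * ((DE L k)ᵀ * DE L k) * mx k f n m) * (TE L e k)ᵀ by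
      simp only [Matrix.mul_assoc], DE_iso]
  rw [Matrix.mul_smul, Matrix.mul_one, Matrix.smul_mul, Matrix.mul_smul, Matrix.smul_mul,
    smul_smul, e4]

/-! ### functional calculus -/

theorem phi_TE (he : Function.Injective e) (hm : ∀ i, e i ∈ lbs L) (k : ℕ)
    {X : Matrix (Ix k × κ) (Ix k × κ) ℝ} (hX : X.PosSemidef) :
    phi (TE L e k * X * (TE L e k)ᵀ) = TE L e k * phi X * (TE L e k)ᵀ := by
  have hT := TE_iso he hm k
  have hY : (TE L e k * X * (TE L e k)ᵀ).PosSemidef := psd_conj hX (TE L e k)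
  have h1 : (1 + TE L e k * X * (TE L e k)ᵀ) * (1 - TE L e k * phi X * (TE L e k)ᵀ) = 1 := by
    have h2 : TE L e k * X * (TE L e k)ᵀ * (TE L e k * phi X * (TE L e k)ᵀ) =
        TE L e k * (X * phi X) * (TE L e k)ᵀ := by
      rw [show TE L e k * X * (TE L e k)ᵀ * (TE L e k * phi X * (TE L e k)ᵀ) =
        TE L e k * X * ((TE L e k)ᵀ * TE L e k) * phi X * (TE L e k)ᵀ by
          simp only [Matrix.mul_assoc], hT, Matrix.mul_one]
      simp only [Matrix.mul_assoc]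
    have h3 : X * phi X = X - phi X := by
      have := mul_res hX
      rw [phi, Matrix.mul_sub, Matrix.mul_one, this]
    rw [Matrix.add_mul, Matrix.one_mul, Matrix.mul_sub, Matrix.mul_one, h2, h3, Matrix.mul_sub,
      Matrix.sub_mul]
    abel
  have h4 : res (TE L e k * X * (TE L e k)ᵀ) = 1 - TE L e k * phi X * (TE L e k)ᵀ := by
    rw [res]
    exact Matrix.inv_eq_right_inv h1
  rw [phi, h4]
  abel

/-! ### the signs and the node operator -/

/-- The signs of the positions. -/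
def hL (κ : Type*) [DecidableEq κ] (k : ℕ) : Matrix (Ix k × κ) (Ix k × κ) ℝ :=
  diagonal fun p => hs k (val k p.1 : ℤ)

theorem hd_diag {k : ℕ} (hk : 1 ≤ k) : hd k = diagonal fun i : Ix k => hs k (val k i : ℤ) := by
  obtain ⟨j, rfl⟩ := Nat.exists_eq_add_of_le' hk
  change rad (Ix j) = _
  rw [rad_diag]
  congr 1
  funext i
  have := hs_val j 0 i
  rw [mul_zero, zero_add] at this
  exact this.symm

theorem hd_TE {k : ℕ} (hk : 1 ≤ k) : hd (k + L) * TE L e k = TE L e k * hL κ k := by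
  ext i p
  rw [hd_diag (by omega), hL, Matrix.diagonal_mul, Matrix.mul_diagonal, TE_apply]
  by_cases h : dp k L i = p.1 ∧ dl k L i = e p.2
  · rw [if_pos h, mul_one, one_mul, hs_add hk]
    have a1 := ix_pos k L 0 i
    simp only [mul_zero, zero_add] at a1
    rw [a1, h.1]
  · rw [if_neg h, mul_zero, zero_mul]

theorem hL_symm (k : ℕ) : (hL κ k)ᵀ = hL κ k := by
  unfold hL
  exact diagonal_transpose _

/-- The node operator on the fine grid. -/
def SE (L : ℕ) (e : κ → ℤ) (S : (k : ℕ) → Pt → Matrix (Ix k × κ) (Ix k × κ) ℝ) :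
    (k : ℕ) → Pt → Matrix (Ix k) (Ix k) ℝ := fun k' m =>
  if h : L ≤ k' then
    (Nat.sub_add_cancel h) ▸ (TE L e (k' - L) * S (k' - L) m * (TE L e (k' - L))ᵀ)
  else 0

theorem SE_add (S : (k : ℕ) → Pt → Matrix (Ix k × κ) (Ix k × κ) ℝ) (k : ℕ) (m : Pt) :
    SE L e S (k + L) m = TE L e k * S k m * (TE L e k)ᵀ := by
  have key : ∀ (j : ℕ) (hj : j = k) (h : j + L = k + L),
      (h ▸ (TE L e j * S j m * (TE L e j)ᵀ) : Matrix (Ix (k + L)) (Ix (k + L)) ℝ) =
        TE L e k * S k m * (TE L e k)ᵀ := by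
    intro j hj h
    subst hj
    rfl
  unfold SE
  rw [dif_pos (Nat.le_add_left L k)]
  exact key (k + L - L) (Nat.add_sub_cancel k L) _

/-- A contraction stays one. -/
theorem SE_contr (he : Function.Injective e) (hm : ∀ i, e i ∈ lbs L)
    {S : (k : ℕ) → Pt → Matrix (Ix k × κ) (Ix k × κ) ℝ} {k : ℕ} {m : Pt}
    (h : (1 - (S k m)ᵀ * S k m).PosSemidef) :
    (1 - (SE L e S (k + L) m)ᵀ * SE L e S (k + L) m).PosSemidef := by
  have hT := TE_iso he hm k
  rw [SE_add]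
  have e1 : (TE L e k * S k m * (TE L e k)ᵀ)ᵀ * (TE L e k * S k m * (TE L e k)ᵀ) =
      TE L e k * ((S k m)ᵀ * S k m) * (TE L e k)ᵀ := by
    rw [transpose_mul, transpose_mul, transpose_transpose,
      show TE L e k * ((S k m)ᵀ * (TE L e k)ᵀ) * (TE L e k * S k m * (TE L e k)ᵀ) =
        TE L e k * (S k m)ᵀ * ((TE L e k)ᵀ * TE L e k) * S k m * (TE L e k)ᵀ by
          simp only [Matrix.mul_assoc], hT, Matrix.mul_one]
    simp only [Matrix.mul_assoc]
  have h1 := psd_conj h (TE L e k)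
  rw [Matrix.mul_sub, Matrix.sub_mul, Matrix.mul_one] at h1
  have h2 : (1 - TE L e k * (TE L e k)ᵀ).PosSemidef := by
    have e2 : (1 - TE L e k * (TE L e k)ᵀ) =
        (1 - TE L e k * (TE L e k)ᵀ) * (1 - TE L e k * (TE L e k)ᵀ)ᵀ := by
      rw [transpose_sub, transpose_one, transpose_mul, transpose_transpose, Matrix.mul_sub,
        Matrix.mul_one, Matrix.sub_mul, Matrix.one_mul,
        show TE L e k * (TE L e k)ᵀ * (TE L e k * (TE L e k)ᵀ) =
          TE L e k * ((TE L e k)ᵀ * TE L e k) * (TE L e k)ᵀ by simp only [Matrix.mul_assoc], hT,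
        Matrix.mul_one]
      abel
    rw [e2]
    exact psd_mul_transpose _
  have h3 := h1.add h2
  rw [e1]
  convert h3 using 1
  abel

/-! ### the node -/

/-- `P = S X_B Sᵀ`. -/
def PB (b : ℕ → κ → ℤ → ℤ → ℝ) (S : (k : ℕ) → Pt → Matrix (Ix k × κ) (Ix k × κ) ℝ) (k : ℕ)
    (m : Pt) : Matrix (Ix k × κ) (Ix k × κ) ℝ :=
  (4 ^ k : ℝ)⁻¹ • (S k m * ((mx k (b k) m.2.1 m.2.2)ᵀ * mx k (b k) m.2.1 m.2.2) * (S k m)ᵀ)

/-- `Q = s² phi (s⁻² X_C)`, `s⁻² = ν`. -/
def QC (ν : ℝ) (c : ℕ → κ → ℤ → ℤ → ℝ) (k : ℕ) (n m : ℤ) : Matrix (Ix k × κ) (Ix k × κ) ℝ :=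
  ν⁻¹ • phi (ν • ((4 ^ k : ℝ)⁻¹ • ((mx k (c k) n m)ᵀ * mx k (c k) n m)))

theorem psd_gram {α β : Type*} [Fintype α] [Fintype β] (M : Matrix α β ℝ) :
    (Mᵀ * M).PosSemidef := by
  have h := posSemidef_conjTranspose_mul_self M
  rwa [conjTranspose_eq_transpose_of_trivial] at h

/-- **One node.** -/
theorem LP_node (he : Function.Injective e) (hm : ∀ i, e i ∈ lbs L) {cB cC : ℝ} (hC : 0 < cC)
    {b c : ℕ → κ → ℤ → ℤ → ℝ} {S : (k : ℕ) → Pt → Matrix (Ix k × κ) (Ix k × κ) ℝ} {k : ℕ}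
    (hk : 1 ≤ k) {m : Pt} (capC : Cap (k + L) m.1 m.2.2 cC (encR L (lf e (c k)))) (j : ℕ) :
    (4 ^ (k + L) : ℝ)⁻¹ *
        (ZL cB cC (shF L fun k => encR L (lf e (b k))) (shF L fun k => encR L (lf e (c k)))
          (SE L e S) 0 j (k + L) m *
          (ZL cB cC (shF L fun k => encR L (lf e (b k))) (shF L fun k => encR L (lf e (c k)))
            (SE L e S) 0 j (k + L) m)ᵀ).trace ≤
      4 * 4 ^ L * (4 ^ k * (QC (lv cC j) c k m.1 m.2.2 *
        (hL κ k * PB b S k m * hL κ k)).trace) := by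
  have hν := lv_pos hC j
  have h4k : (0 : ℝ) < (4 ^ (k + L))⁻¹ := by positivity
  set F := bl (k + L) (encR L (lf e (c k))) m.1 m.2.2 with hF
  set B := bl (k + L) (encR L (lf e (b k))) m.2.1 m.2.2 with hB
  have h0 : 0 < (cC ^ 2)⁻¹ * ((4 : ℝ) ^ (k + L))⁻¹ := by positivity
  have c1 : (1 - gramC ((cC ^ 2)⁻¹ * (4 ^ (k + L))⁻¹) F).PosSemidef := cap_one hC capC
  have ad := (rg_adc h0.le c1 j).1
  set H := rg ((cC ^ 2)⁻¹ * (4 ^ (k + L))⁻¹) F j with hH
  have eZ : ZL cB cC (shF L fun k => encR L (lf e (b k))) (shF L fun k => encR L (lf e (c k)))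
      (SE L e S) 0 j (k + L) m = H * hd (k + L) * SE L e S (k + L) m * Bᵀ := by
    have e0 : rg ((cB ^ 2)⁻¹ * (4 ^ (k + L))⁻¹) B 0 = B := rfl
    rw [ZL, CL, BL, shF_add, shF_add, ← hF, ← hB, e0]
  rw [eZ]
  -- the Gram matrix of `B` conjugated by the signs and the node operator
  set M := hd (k + L) * SE L e S (k + L) m * (Bᵀ * B) * (SE L e S (k + L) m)ᵀ * hd (k + L) with hM
  have e1 : ((H * hd (k + L) * SE L e S (k + L) m * Bᵀ) *
      (H * hd (k + L) * SE L e S (k + L) m * Bᵀ)ᵀ).trace = ((Hᵀ * H) * M).trace := by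
    rw [hM]
    simp only [transpose_mul, transpose_transpose, hd_symm]
    rw [show H * hd (k + L) * SE L e S (k + L) m * Bᵀ *
      (B * ((SE L e S (k + L) m)ᵀ * (hd (k + L) * Hᵀ))) =
      (H * (hd (k + L) * SE L e S (k + L) m * (Bᵀ * B) * (SE L e S (k + L) m)ᵀ *
        hd (k + L))) * Hᵀ by simp only [Matrix.mul_assoc], trace_mul_comm, ← Matrix.mul_assoc Hᵀ H]
  have hMp : M.PosSemidef := by
    have h := psd_conj (psd_gram B) (hd (k + L) * SE L e S (k + L) m)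
    rw [hM]
    convert h using 1
    simp only [transpose_mul, hd_symm, Matrix.mul_assoc]
  have e2 : (gramC (lw ((cC ^ 2)⁻¹ * (4 ^ (k + L))⁻¹) j) H * M).trace ≤
      (((4 : ℝ) • phi (gramC (lw ((cC ^ 2)⁻¹ * (4 ^ (k + L))⁻¹) j) F)) * M).trace :=
    trace_mul_le_left hMp ad
  rw [lw_mul'] at e2
  have e3 : gramC (lw (cC ^ 2)⁻¹ j * (4 ^ (k + L))⁻¹) F =
      TE L e k * (lv cC j • ((4 ^ k : ℝ)⁻¹ • ((mx k (c k) m.1 m.2.2)ᵀ * mx k (c k) m.1 m.2.2))) *
        (TE L e k)ᵀ := by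
    rw [gramC, hF, gram_enc, smul_smul, Matrix.mul_smul, Matrix.mul_smul, Matrix.smul_mul,
      Matrix.smul_mul, smul_smul]
    congr 1
    rw [lv, pow_add]
    have h4 : (4 : ℝ) ^ L ≠ 0 := by positivity
    have h5 : (4 : ℝ) ^ k ≠ 0 := by positivity
    field_simp
  have hX : (lv cC j • ((4 ^ k : ℝ)⁻¹ •
      ((mx k (c k) m.1 m.2.2)ᵀ * mx k (c k) m.1 m.2.2))).PosSemidef :=
    ((psd_gram _).smul (by positivity)).smul hν.le
  rw [e3, phi_TE he hm k hX] at e2
  have hM2 : M = (4 ^ (k + L) : ℝ) • (TE L e k * (hL κ k * PB b S k m * hL κ k) *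
      (TE L e k)ᵀ) := by
    have t1 : (TE L e k)ᵀ * hd (k + L) = hL κ k * (TE L e k)ᵀ := by
      have := congrArg Matrix.transpose (hd_TE (L := L) (e := e) hk)
      rwa [transpose_mul, transpose_mul, hd_symm, hL_symm] at this
    rw [hM, hB, gram_enc, SE_add, PB]
    simp only [transpose_mul, transpose_transpose, Matrix.mul_smul, Matrix.smul_mul, smul_smul]
    have e5 : ((4 : ℝ) ^ (k + L)) * (4 ^ k)⁻¹ = 4 ^ L := by
      rw [pow_add]
      have h5 : (4 : ℝ) ^ k ≠ 0 := by positivity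
      field_simp
    rw [e5]
    congr 1
    have t0 := hd_TE (L := L) (e := e) (κ := κ) hk
    have tT := TE_iso he hm k
    set T := TE L e k
    set G := (mx k (b k) m.2.1 m.2.2)ᵀ * mx k (b k) m.2.1 m.2.2
    calc hd (k + L) * (T * S k m * Tᵀ) * (T * G * Tᵀ) * (T * ((S k m)ᵀ * Tᵀ)) * hd (k + L)
        = (hd (k + L) * T) * S k m * (Tᵀ * T) * G * (Tᵀ * T) * (S k m)ᵀ * (Tᵀ * hd (k + L)) := by
          simp only [Matrix.mul_assoc]
      _ = T * (hL κ k * (S k m * G * (S k m)ᵀ) * hL κ k) * Tᵀ := by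
          rw [t0, t1, tT]
          simp only [Matrix.mul_assoc, Matrix.mul_one]
  have e6 : (((4 : ℝ) • (TE L e k * phi (lv cC j • ((4 ^ k : ℝ)⁻¹ •
      ((mx k (c k) m.1 m.2.2)ᵀ * mx k (c k) m.1 m.2.2))) * (TE L e k)ᵀ)) * M).trace =
      4 * 4 ^ (k + L) * lv cC j * (QC (lv cC j) c k m.1 m.2.2 *
        (hL κ k * PB b S k m * hL κ k)).trace := by
    rw [hM2, QC, Matrix.smul_mul, Matrix.mul_smul, trace_smul, trace_smul, Matrix.smul_mul,
      trace_smul]
    have tT := TE_iso he hm k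
    set T := TE L e k
    set Φ := phi (lv cC j • ((4 ^ k : ℝ)⁻¹ •
      ((mx k (c k) m.1 m.2.2)ᵀ * mx k (c k) m.1 m.2.2)))
    set Z := hL κ k * PB b S k m * hL κ k
    have : (T * Φ * Tᵀ * (T * Z * Tᵀ)).trace = (Φ * Z).trace := by
      rw [show T * Φ * Tᵀ * (T * Z * Tᵀ) = (T * (Φ * (Tᵀ * T) * Z)) * Tᵀ by
        simp only [Matrix.mul_assoc], tT, Matrix.mul_one, trace_mul_comm,
        ← Matrix.mul_assoc, tT, Matrix.one_mul]
    rw [this]
    simp only [smul_eq_mul]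
    have := hν.ne'
    field_simp
  rw [e6] at e2
  have e7 : (gramC (lw (cC ^ 2)⁻¹ j * (4 ^ (k + L))⁻¹) H * M).trace =
      lv cC j * ((4 ^ (k + L))⁻¹ * ((Hᵀ * H) * M).trace) := by
    rw [gramC, Matrix.smul_mul, trace_smul, smul_eq_mul, lv]
    ring
  rw [e7] at e2
  rw [e1]
  have e8 := le_of_mul_le_mul_left (a := lv cC j) (b := (4 ^ (k + L))⁻¹ * ((Hᵀ * H) * M).trace)
    (c := 4 * 4 ^ (k + L) * (QC (lv cC j) c k m.1 m.2.2 *
        (hL κ k * PB b S k m * hL κ k)).trace) (by refine e2.trans (le_of_eq ?_); ring) hν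
  refine e8.trans (le_of_eq ?_)
  rw [pow_add]
  ring

/-! ### the sum over the nodes -/

theorem PB_psd (b : ℕ → κ → ℤ → ℤ → ℝ) (S : (k : ℕ) → Pt → Matrix (Ix k × κ) (Ix k × κ) ℝ)
    (k : ℕ) (m : Pt) : (PB b S k m).PosSemidef := by
  have h := (psd_conj (psd_gram (mx k (b k) m.2.1 m.2.2)) (S k m)).smul
    (show (0 : ℝ) ≤ (4 ^ k)⁻¹ by positivity)
  exact h

theorem QC_psd {ν : ℝ} (hν : 0 < ν) (c : ℕ → κ → ℤ → ℤ → ℝ) (k : ℕ) (n m : ℤ) :
    (QC ν c k n m).PosSemidef := by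
  have h : (ν • ((4 ^ k : ℝ)⁻¹ • ((mx k (c k) n m)ᵀ * mx k (c k) n m))).PosSemidef :=
    ((psd_gram _).smul (by positivity)).smul hν.le
  exact (phi_psd h).smul (inv_nonneg.2 hν.le)

/-- The coarse pair at a node is nonnegative. -/
theorem QP_nonneg {ν : ℝ} (hν : 0 < ν) (b c : ℕ → κ → ℤ → ℤ → ℝ)
    (S : (k : ℕ) → Pt → Matrix (Ix k × κ) (Ix k × κ) ℝ) (k : ℕ) (n : ℤ) (m : Pt) :
    0 ≤ (QC ν c k n m.2.2 * (hL κ k * PB b S k m * hL κ k)).trace := by
  refine H999.trace_psd_mul (QC_psd hν c k n m.2.2) ?_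
  have h := psd_conj (PB_psd b S k m) (hL κ k)
  rwa [hL_symm] at h

variable {N : ℕ} {R : Pt} {co : ℕ → ℤ} {s : ℕ → Finset Pt} {cB cC : ℝ}
  {b c : ℕ → κ → ℤ → ℤ → ℝ} {S : (k : ℕ) → Pt → Matrix (Ix k × κ) (Ix k × κ) ℝ}

/-- **`LP` of the fine grid by the coarse pair functional**, `k` from `1` to `N`. -/
theorem LP_lab (he : Function.Injective e) (hm : ∀ i, e i ∈ lbs L) (hC : 0 < cC)
    (hs : ∀ k ∈ Icc 1 N, s k ⊆ bx3 N R k (co k))
    (capC : ∀ k ∈ Icc 1 N, ∀ m ∈ s k, CapR L k m.1 m.2.2 cC (lf e (c k))) (j : ℕ) :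
    LP (N + L) (shs L s) cB cC (shF L fun k => encR L (lf e (b k)))
        (shF L fun k => encR L (lf e (c k))) (SE L e S) 0 j ≤
      4 * 4 ^ L * ∑ k ∈ Icc 1 N, GW N R.2.1 R.2.2 R.1 k (co k) fun n n' m =>
        (QC (lv cC j) c k n' m * (hL κ k * PB b S k (n', n, m) * hL κ k)).trace := by
  unfold LP
  rw [sum_shs N L s fun k m => (4 ^ k : ℝ)⁻¹ *
    (ZL cB cC (shF L fun k => encR L (lf e (b k))) (shF L fun k => encR L (lf e (c k)))
      (SE L e S) 0 j k m * (ZL cB cC (shF L fun k => encR L (lf e (b k)))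
        (shF L fun k => encR L (lf e (c k))) (SE L e S) 0 j k m)ᵀ).trace, mul_sum]
  refine sum_le_sum fun k hk => ?_
  have hk1 := (mem_Icc.1 hk).1
  refine (sum_le_sum fun m hm' => LP_node he hm (cB := cB) hC (b := b) (c := c) (S := S) hk1
    (m := m) (cap_encR (capC k hk m hm')) j).trans ?_
  refine (sum_le_sum_of_subset_of_nonneg (hs k hk) fun m _ _ => ?_).trans (le_of_eq ?_)
  · have := QP_nonneg (lv_pos hC j) b c S k m.1 m
    positivity
  · rw [← mul_sum, ← mul_sum, sum_bx3_32]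
    rfl

/-- The same with the index of the step. -/
theorem LP_lab' (he : Function.Injective e) (hm : ∀ i, e i ∈ lbs L) (hC : 0 < cC)
    (hs : ∀ k ∈ Icc 1 N, s k ⊆ bx3 N R k (co k))
    (capC : ∀ k ∈ Icc 1 N, ∀ m ∈ s k, CapR L k m.1 m.2.2 cC (lf e (c k))) (j : ℕ) :
    LP (N + L) (shs L s) cB cC (shF L fun k => encR L (lf e (b k)))
        (shF L fun k => encR L (lf e (c k))) (SE L e S) 0 j ≤
      4 * 4 ^ L * ∑ k ∈ Ico 0 N, GW N R.2.1 R.2.2 R.1 (k + 1) (co (k + 1)) fun n n' m =>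
        (QC (lv cC j) c (k + 1) n' m *
          (hL κ (k + 1) * PB b S (k + 1) (n', n, m) * hL κ (k + 1))).trace := by
  refine (LP_lab he hm hC hs capC j).trans (le_of_eq ?_)
  congr 1
  rw [Nat.Ico_zero_eq_range, ← Finset.sum_image (s := range N) (g := fun k => k + 1)
    (f := fun k => GW N R.2.1 R.2.2 R.1 k (co k) fun n n' m =>
        (QC (lv cC j) c k n' m * (hL κ k * PB b S k (n', n, m) * hL κ k)).trace)
    (fun a _ b _ h => by simpa using h)]
  refine Finset.sum_congr ?_ fun _ _ => rfl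
  ext k
  simp only [mem_Icc, mem_image, mem_range]
  constructor
  · intro h
    exact ⟨k - 1, by omega, by omega⟩
  · rintro ⟨a, ha, rfl⟩
    omega

end lab

end

end Vale.Agent.P141.H536
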